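import Vale.Agent.P066.Final

/-!
Shareshian-Wachs elementary positivity for natural unit interval graphs with clique number
at most three.
-/

namespace Vale.Agent.Results.P066.CliqueThree

open MvPolynomial Vale.Agent.P066

theorem result :
    ∀ (n : ℕ) (h : Fin n → Fin n), Monotone h → (∀ i, i ≤ h i) →
      (∀ i, (h i : ℕ) ≤ (i : ℕ) + 2) →
      ∃! c : Nat.Partition n → Polynomial ℕ, ∀ N : ℕ, chromZ N h =
        ∑ l : Nat.Partition n,
          C ((c l).map (Nat.castRingHom ℤ)) * esymmPart (Fin N) (Polynomial ℤ) l :=
  fun _ _ hm hle h2 => unique_expansion hm hle h2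

end Vale.Agent.Results.P066.CliqueThree
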